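import Vale.Agent.P281.H180.TM.ESpec

/-! P281, project T-M, T0 E12 (helper648): the points of a reduced hypersurface `D` which are not
smooth, or where `f|D` is not submersive, form an analytic set. -/

open Set Filter Metric Vale.Agent.P281 Vale.Agent.P281.H713 Vale.Agent.P281.H64
open Vale.Agent.P281.H303.Gen (pnt SmEq)
open Vale.Agent.P281.H64.Gen (IsSmallSet IsAnalyticSet)
open Vale.Agent.P281.H180.TM
open scoped Topology ContDiff Manifold

noncomputable section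

namespace Vale.Agent.P281.H648.TM

/-- A pair `(A, e)`, `e` a linear form, is onto iff `e ≠ 0` and `A (ker e)` has dimension `q`. -/
theorem surj_iff_rnk {n q : ℕ} (A : Cm n →L[ℂ] Cm q) (e : Cm n →L[ℂ] ℂ) :
    (e ≠ 0 ∧ q ≤ rnk A e) ↔ Function.Surjective fun ξ : Cm n => (A ξ, e ξ) := by
  constructor
  · rintro ⟨he, hr⟩ ⟨y, c⟩
    obtain ⟨ξ₁, h1⟩ : ∃ ξ, e ξ ≠ 0 := by
      by_contra hcon
      push Not at hcon
      exact he (ContinuousLinearMap.ext hcon)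
    have htop : (LinearMap.ker (e : Cm n →ₗ[ℂ] ℂ)).map (A : Cm n →ₗ[ℂ] Cm q) = ⊤ := by
      refine Submodule.eq_top_of_finrank_eq (le_antisymm (Submodule.finrank_le _) ?_)
      have h2 : Module.finrank ℂ (Cm q) = q := by simp [Cm]
      rw [h2]
      exact hr
    set ξ₀ : Cm n := (c / e ξ₁) • ξ₁ with hξ₀
    have h2 : e ξ₀ = c := by
      rw [hξ₀, map_smul, smul_eq_mul, div_mul_cancel₀ _ h1]
    have h3 : y - A ξ₀ ∈ (LinearMap.ker (e : Cm n →ₗ[ℂ] ℂ)).map (A : Cm n →ₗ[ℂ] Cm q) := by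
      rw [htop]; trivial
    obtain ⟨η, hη, hη2⟩ := Submodule.mem_map.1 h3
    have h4 : e η = 0 := hη
    have h5 : A η = y - A ξ₀ := hη2
    refine ⟨ξ₀ + η, ?_⟩
    show (A (ξ₀ + η), e (ξ₀ + η)) = (y, c)
    rw [map_add, map_add, h4, h5, h2, add_zero, add_sub_cancel]
  · intro h
    constructor
    · rintro rfl
      obtain ⟨ξ, hξ⟩ := h (0, 1)
      have := congrArg Prod.snd hξ
      simp at this
    · have htop : (LinearMap.ker (e : Cm n →ₗ[ℂ] ℂ)).map (A : Cm n →ₗ[ℂ] Cm q) = ⊤ := by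
        rw [eq_top_iff]
        rintro y -
        obtain ⟨ξ, hξ⟩ := h (y, 0)
        exact Submodule.mem_map.2 ⟨ξ, congrArg Prod.snd hξ, congrArg Prod.fst hξ⟩
      unfold rnk
      rw [htop, finrank_top]
      have h2 : Module.finrank ℂ (Cm q) = q := by simp [Cm]
      rw [h2]

variable {q : ℕ} {X Y : Type} [TopologicalSpace X] [ChartedSpace (Cm (q + 1 + 1)) X]
  [IsManifold 𝓘(ℂ, Cm (q + 1 + 1)) ω X] [TopologicalSpace Y] [ChartedSpace (Cm q) Y]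
  [IsManifold 𝓘(ℂ, Cm q) ω Y]

/-- The smooth equation may be replaced by any reduced local equation. -/
theorem exists_smEq_iff {D : Set X} {g : X → ℂ} {z : X} (hz : z ∈ D)
    (hg : J.IsLocalEq (Cm (q + 1 + 1)) D g z) (A : Cm (q + 1 + 1) →L[ℂ] Cm q) :
    (∃ e, SmEq (n := q + 1 + 1) D e z ∧ q ≤ rnk A (dV (Cm (q + 1 + 1)) e z)) ↔
      Function.Surjective fun ξ : Cm (q + 1 + 1) => (A ξ, dV (Cm (q + 1 + 1)) g z ξ) := by
  constructor
  · rintro ⟨e, ⟨he, he0, hde, hev⟩, hr⟩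
    obtain ⟨u, hu, hu0, hue⟩ := H511.Gen.exists_unit he he0 hde hev hg
    have h1 : dV (Cm (q + 1 + 1)) g z = u z • dV (Cm (q + 1 + 1)) e z :=
      H511.Gen.dif_mul_unit he he0 hu hue
    have h2 := (surj_iff_rnk A (dV (Cm (q + 1 + 1)) e z)).1 ⟨hde, hr⟩
    rintro ⟨y, c⟩
    obtain ⟨ξ, hξ⟩ := h2 (y, c / u z)
    refine ⟨ξ, ?_⟩
    have h3 : A ξ = y := congrArg Prod.fst hξ
    have h4 : dV (Cm (q + 1 + 1)) e z ξ = c / u z := congrArg Prod.snd hξ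
    show (A ξ, dV (Cm (q + 1 + 1)) g z ξ) = (y, c)
    rw [h1, h3]
    have h5 : (u z • dV (Cm (q + 1 + 1)) e z) ξ = c := by
      show u z • dV (Cm (q + 1 + 1)) e z ξ = c
      rw [h4, smul_eq_mul, mul_div_cancel₀ _ hu0]
    rw [h5]
  · intro h
    obtain ⟨h1, h2⟩ := (surj_iff_rnk A (dV (Cm (q + 1 + 1)) g z)).2 h
    exact ⟨g, ⟨H511.Gen.isLocalEq_holAt hg, (H511.Gen.isLocalEq_mem_iff hg).self_of_nhds.1 hz, h1,
      H511.Gen.isLocalEq_mem_iff hg⟩, h2⟩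

/-- Surjectivity in a chart. -/
theorem surj_chart {V : Type} [NormedAddCommGroup V] [NormedSpace ℂ V] {h : X → V} {x₀ x : X}
    (hx : x ∈ (chartAt (Cm (q + 1 + 1)) x₀).source) (hh : HolV (Cm (q + 1 + 1)) h x) :
    Function.Surjective (dV (Cm (q + 1 + 1)) h x) ↔
      Function.Surjective (fderiv ℂ (h ∘ (chartAt (Cm (q + 1 + 1)) x₀).symm)
        (chartAt (Cm (q + 1 + 1)) x₀ x)) := by
  have h1 := dV_eq_chart hx hh
  have h2 := H399.Gen.dV_inj (p := q + 1) hx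
  rw [h1]
  constructor
  · intro h3 y
    obtain ⟨ξ, hξ⟩ := h3 y
    exact ⟨_, hξ⟩
  · intro h3
    exact h3.comp h2.2

/-- **E12** -/
theorem anaStmt : AnaStmt := by
  intro q X Y _ _ _ _ _ _ f D hf hDc hloc x₀
  obtain ⟨g, V, hVo, hxV, hV1, hV2, hV3⟩ := hloc x₀
  have hleq : ∀ x ∈ V, J.IsLocalEq (Cm (q + 1 + 1)) D g x :=
    fun x hx' => ⟨V, hVo, hx', hV1, hV2, hV3⟩
  set φ := chartAt (Cm (q + 1 + 1)) x₀ with hφ
  set ψ := chartAt (Cm q) (f x₀) with hψ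
  have hx : x₀ ∈ φ.source := mem_chart_source _ x₀
  have hfx : f x₀ ∈ ψ.source := mem_chart_source _ (f x₀)
  set FX : X → Cm (q + 1) := fun z => Fin.cons (g z) (ψ (f z)) with hFXd
  have hψf : ∀ z, f z ∈ ψ.source → HolV (Cm (q + 1 + 1)) (fun z => ψ (f z)) z := fun z hz =>
    HolV.comp (E' := Cm q) (h := (chartAt (Cm q) (f x₀) : Y → Cm q)) (HolV.chart hz) (hf z)
  have hFX : ∀ z ∈ V, f z ∈ ψ.source → HolV (Cm (q + 1 + 1)) FX z := by
    intro z hz hfz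
    refine HolV.pi fun i => ?_
    refine Fin.cases ?_ (fun j => ?_) i
    · exact hV1 z hz
    · exact (hψf z hfz).eval j
  have hsurj : ∀ z ∈ V, f z ∈ ψ.source → (Function.Surjective (dV (Cm (q + 1 + 1)) FX z) ↔
      Function.Surjective fun ξ : Cm (q + 1 + 1) =>
        (dM (Cm (q + 1 + 1)) (Cm q) f z ξ, dV (Cm (q + 1 + 1)) g z ξ)) := by
    intro z hz hfz
    have e0 : ∀ ξ, dV (Cm (q + 1 + 1)) FX z ξ 0 = dV (Cm (q + 1 + 1)) g z ξ := fun ξ =>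
      dV_apply (hFX z hz hfz) 0 ξ
    have e1 : ∀ ξ (j : Fin q), dV (Cm (q + 1 + 1)) FX z ξ j.succ =
        dV (Cm (q + 1 + 1)) (fun z => ψ (f z)) z ξ j := fun ξ j => by
      rw [dV_apply (hFX z hz hfz) j.succ ξ, dV_apply (hψf z hfz) j ξ]
      rfl
    have e2 : dV (Cm (q + 1 + 1)) (fun z => ψ (f z)) z =
        (dV (Cm q) (chartAt (Cm q) (f x₀) : Y → Cm q) (f z)).comp
          (dM (Cm (q + 1 + 1)) (Cm q) f z) :=
      dV_comp (E' := Cm q) (h := (chartAt (Cm q) (f x₀) : Y → Cm q)) (HolV.chart hfz) (hf z)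
    have hdet : (dV (Cm q) (chartAt (Cm q) (f x₀) : Y → Cm q) (f z)).det ≠ 0 :=
      jac_chart_ne_zero hfz
    have hbij : Function.Bijective (dV (Cm q) (chartAt (Cm q) (f x₀) : Y → Cm q) (f z)) :=
      (LinearMap.equivOfDetNeZero
        ((dV (Cm q) (chartAt (Cm q) (f x₀) : Y → Cm q) (f z) : Cm q →L[ℂ] Cm q) :
          Cm q →ₗ[ℂ] Cm q) hdet).bijective
    have e3 : ∀ ξ, dV (Cm (q + 1 + 1)) (fun z => ψ (f z)) z ξ =
        dV (Cm q) (chartAt (Cm q) (f x₀) : Y → Cm q) (f z)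
          (dM (Cm (q + 1 + 1)) (Cm q) f z ξ) := fun ξ => by
      rw [e2]; rfl
    constructor
    · rintro h ⟨y, c⟩
      obtain ⟨ξ, hξ⟩ := h (Fin.cons c (dV (Cm q) (chartAt (Cm q) (f x₀) : Y → Cm q) (f z) y))
      refine ⟨ξ, ?_⟩
      have h1 : dV (Cm (q + 1 + 1)) g z ξ = c := by
        rw [← e0, hξ]; rfl
      have h2 : dM (Cm (q + 1 + 1)) (Cm q) f z ξ = y := by
        apply hbij.1
        rw [← e3]
        funext j
        rw [← e1, hξ]
        rfl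
      show (dM (Cm (q + 1 + 1)) (Cm q) f z ξ, dV (Cm (q + 1 + 1)) g z ξ) = (y, c)
      rw [h1, h2]
    · intro h y
      obtain ⟨y', hy'⟩ := hbij.2 (fun j => y j.succ)
      obtain ⟨ξ, hξ⟩ := h (y', y 0)
      have h1 : dM (Cm (q + 1 + 1)) (Cm q) f z ξ = y' := congrArg Prod.fst hξ
      have h2 : dV (Cm (q + 1 + 1)) g z ξ = y 0 := congrArg Prod.snd hξ
      refine ⟨ξ, ?_⟩
      funext i
      refine Fin.cases ?_ (fun j => ?_) i
      · rw [e0, h2]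
      · rw [e1, e3, h1, hy']
  set W : Set (Cm (q + 1 + 1)) := φ.target ∩ φ.symm ⁻¹' (V ∩ f ⁻¹' ψ.source) with hW
  have hWo : IsOpen W :=
    φ.isOpen_inter_preimage_symm (hVo.inter (ψ.open_source.preimage hf.continuous))
  have hxW : φ x₀ ∈ W := by
    refine ⟨φ.map_source hx, ?_⟩
    rw [mem_preimage, φ.left_inv hx]
    exact ⟨hxV, hfx⟩
  have han : ∀ v ∈ W, AnalyticAt ℂ (FX ∘ φ.symm) v := by
    rintro v ⟨hv, hvV, hvf⟩
    have h1 := (HolV.rep (φ.map_target hv) (hFX _ hvV hvf)).analyticAt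
    rw [← hφ, φ.right_inv hv] at h1
    exact h1
  obtain ⟨U, ι, k, hU, hzU, hk, hA⟩ := H150.Gen.anIn_crit hWo han (φ x₀) hxW
  refine ⟨(φ.source ∩ φ ⁻¹' (W ∩ U)), Option ι, fun o z => o.elim (g z) (fun i => k i (φ z)),
    φ.isOpen_inter_preimage (hWo.inter hU), ⟨hx, hxW, hzU⟩, ?_, ?_⟩
  · rintro (_ | i) z ⟨hz, ⟨-, hzV, -⟩, hzU'⟩
    · rw [φ.left_inv hz] at hzV
      exact hV1 z hzV
    · exact HolV.comp_contDiff (G := k i) ((hk i _ hzU').contDiffAt) (HolV.chart hz)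
  · rintro z ⟨hz, ⟨-, hzV, hzf⟩, hzU'⟩
    rw [φ.left_inv hz] at hzV
    have hzf' : f z ∈ ψ.source := by
      have := hzf
      rw [mem_preimage, φ.left_inv hz] at this
      exact this
    have h1 : (¬ Function.Surjective (fderiv ℂ (FX ∘ φ.symm) (φ z))) ↔ ∀ i, k i (φ z) = 0 :=
      hA _ hzU'
    rw [← surj_chart hz (hFX z hzV hzf'), hsurj z hzV hzf'] at h1
    have h2 : z ∈ {x | x ∈ D ∧ ¬ ∃ e, SmEq (n := q + 1 + 1) D e x ∧
        q ≤ rnk (dM (Cm (q + 1 + 1)) (Cm q) f x) (dV (Cm (q + 1 + 1)) e x)} ↔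
        (g z = 0 ∧ ∀ i, k i (φ z) = 0) := by
      constructor
      · rintro ⟨h3, h4⟩
        refine ⟨(hV2 z hzV).1 h3, h1.1 ?_⟩
        rwa [exists_smEq_iff h3 (hleq z hzV)] at h4
      · rintro ⟨h3, h4⟩
        have h5 := (hV2 z hzV).2 h3
        refine ⟨h5, ?_⟩
        rw [exists_smEq_iff h5 (hleq z hzV)]
        exact h1.2 h4
    rw [h2]
    constructor
    · rintro ⟨h3, h4⟩ (_ | i)
      · exact h3
      · exact h4 i
    · intro h3
      exact ⟨h3 none, fun i => h3 (some i)⟩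

end Vale.Agent.P281.H648.TM
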